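import Vale.Agent.N166.Main

namespace Vale.Agent.Results.P166.A0Outliers

open MeasureTheory Filter Topology Vale.Agent.P166W95 Vale.Agent.N166

theorem result (μ : ProbabilityMeasure ℝ) (hμ : IsCompact (μ : Measure ℝ).support)
    (β : ℝ) (hβ : 0 < β) :
    -- (1) spectra with outliers
    (∀ (lam : ℝ) (Λ : (N : ℕ) → Fin N → ℝ),
      Tendsto (fun N : ℕ => empirical (Λ (N + 1))) atTop (𝓝 μ) → (∃ A, ∀ N i, A ≤ Λ N i) →
      Tendsto (fun N : ℕ => ⨆ i, Λ (N + 1) i) atTop (𝓝 lam) →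
      ∀ (Ω : Type*) [MeasurableSpace Ω] (P : Measure Ω) [IsProbabilityMeasure P]
        (U : (N : ℕ) → Ω → Orth N), (∀ N, HaarDistributed P (U N)) →
        (∀ᵐ ω ∂P, Tendsto (fun N => pressure N β (coupling (Λ N) (U N ω))) atTop
          (𝓝 (valueR β (spiked μ lam)))) ∧
        ∀ r : ENNReal, 1 ≤ r → r ≠ ⊤ → Tendsto (fun N => eLpNorm (fun ω =>
          pressure N β (coupling (Λ N) (U N ω)) - valueR β (spiked μ lam)) r P) atTop (𝓝 0)) ∧
    -- (2) the dependence on the outlier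
    (sSup (μ : Measure ℝ).support ≤ stieltjesInv μ β ∧
      (∀ lam ≤ stieltjesInv μ β, valueR β (spiked μ lam) = valueR β (rTransform μ)) ∧
      (∀ l l' : ℝ, l ≤ l' → valueR β (spiked μ l) ≤ valueR β (spiked μ l') ∧
        valueR β (spiked μ l') ≤ valueR β (spiked μ l) + β * (l' - l) / 2) ∧
      ∀ lam, sSup (μ : Measure ℝ).support ≤ lam →
        β / 2 * (sInf (μ : Measure ℝ).support +
          2 / Real.pi * (lam - sInf (μ : Measure ℝ).support)) - Real.log 2 ≤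
          valueR β (spiked μ lam)) ∧
    -- (3) such spectra exist, and the formula with an outlier is well defined
    (∀ lam, sSup (μ : Measure ℝ).support ≤ lam → ∃ Λ : (N : ℕ) → Fin N → ℝ,
      Tendsto (fun N : ℕ => empirical (Λ (N + 1))) atTop (𝓝 μ) ∧ (∃ A, ∀ N i, A ≤ Λ N i) ∧
      Tendsto (fun N : ℕ => ⨆ i, Λ (N + 1) i) atTop (𝓝 lam)) ∧
    ∀ lam, IsGLB (outerR β (spiked μ lam)) (valueR β (spiked μ lam)) ∧
      ∀ k m q, Exponents k m → MonoPath k q → q 0 = 0 → q k < 1 →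
        IntervalIntegrable (fun s => spiked μ lam (β * level k m q s)) volume 0 1 ∧
        IsLUB (innerR β (spiked μ lam) k m q) (sSup (innerR β (spiked μ lam) k m q)) :=
  ⟨fun lam Λ h1 h2 h3 Ω _ P _ U hU => spiked_thm μ hμ hβ lam Λ h1 h2 h3 Ω P U hU,
    ⟨P166.F.le_stInv hμ hβ, fun _ h => spiked_eq hμ hβ h, fun _ _ h => spiked_lip hμ hβ h,
      fun _ h => value_ge hμ hβ h⟩,
    fun _ h => exists_spiked' μ hμ h,
    fun lam => ⟨isGLB_csInf (outerR_ne β _) (bdd_spiked hμ hβ lam), fun k m q hm hq hq0 hq1 =>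
      ⟨II_spiked hμ hβ lam k m q hm hq hq0 hq1, isLUB_innerR β _ hm hq hq1⟩⟩⟩

end Vale.Agent.Results.P166.A0Outliers
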